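import Vale.Agent.P275.H490.Defs

/-!
# Row FIN: reading off the table of mixed Hodge numbers from the leading terms
-/

namespace Vale.Agent.P275.H218

open scoped BigOperators Topology
open Filter Vale.Agent.P275.H490

/-- primes congruent to one modulo `M` -/
def PS (M : ℕ) : Set ℕ := {p : ℕ | p.Prime ∧ p ≡ 1 [MOD M]}

theorem neBot_PS (M : ℕ) (hM : 1 ≤ M) : (atTop ⊓ 𝓟 (PS M)).NeBot := by
  have hinf : (PS M).Infinite := Nat.infinite_setOfPred_prime_modEq_one (by omega)
  exact Filter.frequently_mem_iff_neBot.1 (Nat.frequently_atTop_iff_infinite.2 hinf)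

/-- the square root of `p` as a complex number -/
noncomputable def sq (p : ℕ) : ℂ := ((Real.sqrt p : ℝ) : ℂ)

theorem sq_sq (p : ℕ) : sq p ^ 2 = (p : ℂ) := by
  unfold sq
  rw [← Complex.ofReal_pow, Real.sq_sqrt (Nat.cast_nonneg p)]
  simp

theorem sq_ne {p : ℕ} (hp : 0 < p) : sq p ≠ 0 := by
  intro h
  have h2 := sq_sq p
  rw [h] at h2
  have h3 : (p : ℂ) ≠ 0 := by exact_mod_cast hp.ne'
  exact h3 (by rw [← h2]; simp)

theorem norm_sq (p : ℕ) : ‖sq p‖ = Real.sqrt p := by
  unfold sq
  rw [Complex.norm_real, Real.norm_eq_abs, abs_of_nonneg (Real.sqrt_nonneg _)]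

theorem tendsto_sqrt : Tendsto (fun p : ℕ => Real.sqrt p) atTop atTop :=
  Real.tendsto_sqrt_atTop.comp tendsto_natCast_atTop_atTop

theorem tendsto_inv_sq : Tendsto (fun p : ℕ => (sq p)⁻¹) atTop (𝓝 0) := by
  rw [tendsto_zero_iff_norm_tendsto_zero]
  have h : (fun p : ℕ => ‖(sq p)⁻¹‖) = fun p : ℕ => (Real.sqrt p)⁻¹ := by
    funext p
    rw [norm_inv, norm_sq]
  rw [h]
  exact tendsto_inv_atTop_zero.comp tendsto_sqrt

/-- a double sum with one nonzero term -/
theorem sum_one (K k0 w0 : ℕ) (hk : k0 < K) (hw : w0 < 2 * k0 + 1) (f : ℕ → ℕ → ℂ)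
    (hf : ∀ k w, k ≠ k0 ∨ w ≠ w0 → f k w = 0) :
    ∑ k ∈ Finset.range K, ∑ w ∈ Finset.range (2 * k + 1), f k w = f k0 w0 := by
  rw [Finset.sum_eq_single k0, Finset.sum_eq_single w0]
  · intro w _ hne
    exact hf _ _ (Or.inr hne)
  · intro h
    exact absurd (Finset.mem_range.2 hw) h
  · intro k _ hne
    exact Finset.sum_eq_zero fun w _ => hf _ _ (Or.inl hne)
  · intro h
    exact absurd (Finset.mem_range.2 hk) h

theorem rowFIN : RowFIN := by
  intro D R g M N hg hM hDR hN h hsupp hlow hsum E hE hp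
  have := neBot_PS M hM
  set F : Filter ℕ := atTop ⊓ 𝓟 (PS M) with hF
  have hFle : F ≤ atTop := inf_le_left
  have hmem : ∀ᶠ p in F, p ∈ PS M := by
    rw [hF]
    exact eventually_inf_principal.2 (Eventually.of_forall fun p hp => hp)
  -- the ratio
  set ra : ℕ → ℕ → ℂ := fun w p => sq p ^ (4 * R - w) / sq p ^ (4 * R - (2 * D + 2)) with hra
  set G : ℕ → ℂ := fun p => ∑ k ∈ Finset.range (2 * R + 1), ∑ w ∈ Finset.range (2 * k + 1),
    (-1) ^ k * (h k w : ℂ) * ra w p with hG
  have hcorr : Tendsto (fun p : ℕ => (1 - ((p : ℂ))⁻¹) ^ (2 * g - 2)) F (𝓝 1) := by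
    have h1 : Tendsto (fun p : ℕ => (1 - ((p : ℂ))⁻¹) ^ (2 * g - 2)) atTop
        (𝓝 ((1 - 0) ^ (2 * g - 2))) := by
      apply Tendsto.pow
      exact tendsto_const_nhds.sub (tendsto_inv_atTop_nhds_zero_nat (𝕜 := ℂ))
    have h2 := h1.mono_left hFle
    simpa using h2
  have hkey : ∀ p ∈ PS M, (E p / (p : ℂ) ^ N - 0) * p = (1 - ((p : ℂ))⁻¹) ^ (2 * g - 2) * G p := by
    intro p hpp
    have hp0 : 0 < p := hpp.1.pos
    have hpc : (p : ℂ) ≠ 0 := by exact_mod_cast hp0.ne'
    have hs : sq p ≠ 0 := sq_ne hp0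
    rw [← hp p hpp.1 hpp.2]
    have e1 : ((p : ℂ) - 1) ^ (2 * g - 2) = (1 - ((p : ℂ))⁻¹) ^ (2 * g - 2) * (p : ℂ) ^ (2 * g - 2) := by
      rw [← mul_pow, sub_mul, one_mul, inv_mul_cancel₀ hpc]
    have e2 : (p : ℂ) ^ N = (p : ℂ) ^ (2 * g - 2) * sq p ^ (4 * R - (2 * D + 2)) * p := by
      have e3 : sq p ^ (4 * R - (2 * D + 2)) = (p : ℂ) ^ (2 * R - (D + 1)) := by
        rw [← sq_sq, ← pow_mul]
        congr 1
        omega
      rw [e3, ← pow_add, ← pow_succ]
      congr 1
      omega
    have e4 : ∑ k ∈ Finset.range (2 * R + 1), ∑ w ∈ Finset.range (2 * k + 1),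
        (-1) ^ k * (h k w : ℂ) * ((Real.sqrt p : ℝ) : ℂ) ^ (4 * R - w) =
        G p * sq p ^ (4 * R - (2 * D + 2)) := by
      rw [hG]
      simp only
      rw [Finset.sum_mul]
      apply Finset.sum_congr rfl
      intro k _
      rw [Finset.sum_mul]
      apply Finset.sum_congr rfl
      intro w _
      rw [hra]
      simp only
      have hne : sq p ^ (4 * R - (2 * D + 2)) ≠ 0 := pow_ne_zero _ hs
      rw [mul_assoc ((-1) ^ k * (h k w : ℂ)), div_mul_cancel₀ _ hne]
      rfl
    rw [e4, e1, e2]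
    have hne : sq p ^ (4 * R - (2 * D + 2)) ≠ 0 := pow_ne_zero _ hs
    have hne2 : (p : ℂ) ^ (2 * g - 2) ≠ 0 := pow_ne_zero _ hpc
    generalize sq p ^ (4 * R - (2 * D + 2)) = x at *
    generalize (p : ℂ) ^ (2 * g - 2) = y at *
    generalize (1 - ((p : ℂ))⁻¹) ^ (2 * g - 2) = z at *
    generalize G p = u at *
    field_simp
    try ring
  have hGlim : Tendsto G F (𝓝 (-(2 * (g : ℂ) - 2))) := by
    have h1 : Tendsto (fun p : ℕ => ((1 - ((p : ℂ))⁻¹) ^ (2 * g - 2))⁻¹ *
        ((E p / (p : ℂ) ^ N - 0) * p)) F (𝓝 ((1 : ℂ)⁻¹ * (-(2 * (g : ℂ) - 2)))) :=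
      (hcorr.inv₀ one_ne_zero).mul (hE.mono_left hFle)
    rw [inv_one, one_mul] at h1
    refine h1.congr' ?_
    filter_upwards [hmem] with p hpp
    rw [hkey p hpp]
    have hp2 : 2 ≤ p := hpp.1.two_le
    have hpc : (p : ℂ) ≠ 0 := by
      have : p ≠ 0 := by omega
      exact_mod_cast this
    have h3 : (1 : ℂ) - ((p : ℂ))⁻¹ ≠ 0 := by
      intro h4
      have h5 : (p : ℂ) = 1 := by
        have h6 : ((p : ℂ))⁻¹ = 1 := (sub_eq_zero.1 h4).symm
        rw [← inv_inv (p : ℂ), h6, inv_one]
      have h7 : p = 1 := by exact_mod_cast h5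
      omega
    rw [← mul_assoc, inv_mul_cancel₀ (pow_ne_zero _ h3), one_mul]
  -- the coefficients
  set m : ℕ → ℕ → ℂ := fun w p => if w = 2 * D + 1 then sq p else if w = 2 * D + 2 then 1 else 0
    with hm
  have hdiff : Tendsto (fun p => ∑ k ∈ Finset.range (2 * R + 1), ∑ w ∈ Finset.range (2 * k + 1),
      (-1) ^ k * (h k w : ℂ) * (ra w p - m w p)) F (𝓝 0) := by
    have h0 : (0 : ℂ) = ∑ k ∈ Finset.range (2 * R + 1), ∑ w ∈ Finset.range (2 * k + 1), (0 : ℂ) := by
      simp
    rw [h0]
    apply tendsto_finsetSum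
    intro k hk
    apply tendsto_finsetSum
    intro w hw
    rw [Finset.mem_range] at hk hw
    by_cases hz : h k w = 0
    · rw [hz]
      simp
    · have hkw := hsupp k w hz
      have hk2 : 2 * D + 1 ≤ k := by
        by_contra hlt
        exact hz (hlow k w (by omega))
      have h1 : Tendsto (fun p => ra w p - m w p) F (𝓝 0) := by
        rcases lt_trichotomy w (2 * D + 2) with hlt | heq | hgt
        · have hw1 : w = 2 * D + 1 := by omega
          refine (tendsto_const_nhds (x := (0 : ℂ))).congr' ?_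
          filter_upwards [hmem] with p hpp
          have hs : sq p ≠ 0 := sq_ne hpp.1.pos
          rw [hra, hm]
          simp only
          rw [hw1, if_pos rfl]
          have e : 4 * R - (2 * D + 1) = 4 * R - (2 * D + 2) + 1 := by omega
          rw [e, pow_succ, mul_comm, mul_div_assoc, div_self (pow_ne_zero _ hs)]
          ring
        · refine (tendsto_const_nhds (x := (0 : ℂ))).congr' ?_
          filter_upwards [hmem] with p hpp
          have hs : sq p ≠ 0 := sq_ne hpp.1.pos
          rw [hra, hm]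
          simp only
          rw [heq, if_neg (by omega), if_pos rfl, div_self (pow_ne_zero _ hs)]
          ring
        · have h2 : Tendsto (fun p => ((sq p)⁻¹) ^ (w - (2 * D + 2))) F (𝓝 0) := by
            have h3 : Tendsto (fun p => ((sq p)⁻¹) ^ (w - (2 * D + 2))) atTop
                (𝓝 ((0 : ℂ) ^ (w - (2 * D + 2)))) := tendsto_inv_sq.pow _
            rw [zero_pow (by omega)] at h3
            exact h3.mono_left hFle
          refine h2.congr' ?_
          filter_upwards [hmem] with p hpp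
          have hs : sq p ≠ 0 := sq_ne hpp.1.pos
          rw [hra, hm]
          simp only
          rw [if_neg (by omega), if_neg (by omega), sub_zero]
          have e : 4 * R - (2 * D + 2) = (4 * R - w) + (w - (2 * D + 2)) := by omega
          rw [e, pow_add, inv_pow, div_mul_eq_div_div, div_self (pow_ne_zero _ hs), one_div]
      have h4 := h1.const_mul ((-1) ^ k * (h k w : ℂ))
      rwa [mul_zero] at h4
  set a : ℕ := h (2 * D + 1) (2 * D + 1) with ha
  set b : ℕ := h (2 * D + 1) (2 * D + 2) with hb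
  set c : ℕ := h (2 * D + 2) (2 * D + 2) with hc
  have hsplit : ∀ p, ∑ k ∈ Finset.range (2 * R + 1), ∑ w ∈ Finset.range (2 * k + 1),
      (-1) ^ k * (h k w : ℂ) * m w p = -(a : ℂ) * sq p + (-(b : ℂ) + c) := by
    intro p
    have e1 : ∀ k w, (-1) ^ k * (h k w : ℂ) * m w p =
        (if k = 2 * D + 1 ∧ w = 2 * D + 1 then -(a : ℂ) * sq p else 0) +
        ((if k = 2 * D + 1 ∧ w = 2 * D + 2 then -(b : ℂ) else 0) +
        (if k = 2 * D + 2 ∧ w = 2 * D + 2 then (c : ℂ) else 0)) := by
      intro k w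
      rw [hm]
      simp only
      by_cases hz : h k w = 0
      · rw [hz]
        have i1 : (if k = 2 * D + 1 ∧ w = 2 * D + 1 then -(a : ℂ) * sq p else 0) = 0 := by
          split_ifs with hh
          · have : a = 0 := by rw [ha, ← hh.1, ← hz, hh.1, hh.2]
            rw [this]; simp
          · rfl
        have i2 : (if k = 2 * D + 1 ∧ w = 2 * D + 2 then -(b : ℂ) else 0) = 0 := by
          split_ifs with hh
          · have : b = 0 := by rw [hb, ← hh.1, ← hz, hh.1, hh.2]
            rw [this]; simp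
          · rfl
        have i3 : (if k = 2 * D + 2 ∧ w = 2 * D + 2 then (c : ℂ) else 0) = 0 := by
          split_ifs with hh
          · have : c = 0 := by rw [hc, ← hz, hh.1, hh.2]
            rw [this]; simp
          · rfl
        rw [i1, i2, i3]
        simp
      · have hkw := hsupp k w hz
        have hk2 : 2 * D + 1 ≤ k := by
          by_contra hlt
          exact hz (hlow k w (by omega))
        by_cases hw1 : w = 2 * D + 1
        · have hk1 : k = 2 * D + 1 := by omega
          subst hw1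
          rw [hk1, if_pos rfl, if_pos ⟨rfl, rfl⟩, if_neg (by omega), if_neg (by omega), ← ha]
          rw [pow_succ, pow_mul]
          norm_num
        · by_cases hw2 : w = 2 * D + 2
          · rw [if_neg hw1, if_pos hw2, if_neg (by omega)]
            by_cases hk1 : k = 2 * D + 1
            · rw [if_pos ⟨hk1, hw2⟩, if_neg (by omega), hk1, hw2, ← hb, pow_succ, pow_mul]
              norm_num
            · have hk3 : k = 2 * D + 2 := by omega
              rw [if_neg (by omega), if_pos ⟨hk3, hw2⟩, hk3, hw2, ← hc]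
              have : (2 * D + 2) = 2 * (D + 1) := by ring
              rw [this, pow_mul]
              norm_num
          · rw [if_neg hw1, if_neg hw2, if_neg (by omega), if_neg (by omega), if_neg (by omega)]
            simp
    simp only [e1, Finset.sum_add_distrib]
    rw [sum_one (2 * R + 1) (2 * D + 1) (2 * D + 1) (by omega) (by omega)
        (fun k w => if k = 2 * D + 1 ∧ w = 2 * D + 1 then -(a : ℂ) * sq p else 0)
        (fun k w hh => if_neg (by omega)),
      sum_one (2 * R + 1) (2 * D + 1) (2 * D + 2) (by omega) (by omega)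
        (fun k w => if k = 2 * D + 1 ∧ w = 2 * D + 2 then -(b : ℂ) else 0)
        (fun k w hh => if_neg (by omega)),
      sum_one (2 * R + 1) (2 * D + 2) (2 * D + 2) (by omega) (by omega)
        (fun k w => if k = 2 * D + 2 ∧ w = 2 * D + 2 then (c : ℂ) else 0)
        (fun k w hh => if_neg (by omega))]
    simp
  have hmain : Tendsto (fun p => -(a : ℂ) * sq p + (-(b : ℂ) + c)) F
      (𝓝 (-(2 * (g : ℂ) - 2))) := by
    have h1 := hGlim.sub hdiff
    rw [sub_zero] at h1
    refine h1.congr ?_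
    intro p
    rw [← hsplit p, hG]
    simp only
    rw [← Finset.sum_sub_distrib]
    apply Finset.sum_congr rfl
    intro k _
    rw [← Finset.sum_sub_distrib]
    apply Finset.sum_congr rfl
    intro w _
    ring
  have ha0 : a = 0 := by
    by_contra hne
    have h1 : Tendsto (fun p => -(a : ℂ) * sq p) F (𝓝 (-(2 * (g : ℂ) - 2) - (-(b : ℂ) + c))) := by
      have h2 := hmain.sub_const (-(b : ℂ) + c)
      refine h2.congr ?_
      intro p
      ring
    have h3 : Tendsto (fun p : ℕ => (a : ℝ) * Real.sqrt p) F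
        (𝓝 ‖-(2 * (g : ℂ) - 2) - (-(b : ℂ) + c)‖) := by
      refine h1.norm.congr ?_
      intro p
      rw [norm_mul, norm_neg, norm_sq, Complex.norm_natCast]
    have h4 : Tendsto (fun p : ℕ => (a : ℝ) * Real.sqrt p) F atTop := by
      have hpos : (0 : ℝ) < a := by exact_mod_cast Nat.pos_of_ne_zero hne
      exact (tendsto_sqrt.mono_left hFle).const_mul_atTop hpos
    exact not_tendsto_nhds_of_tendsto_atTop h4 _ h3
  have hbc : (-(b : ℂ) + c) = -(2 * (g : ℂ) - 2) := by
    rw [ha0] at hmain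
    have h1 : Tendsto (fun _ : ℕ => (-(b : ℂ) + c)) F (𝓝 (-(2 * (g : ℂ) - 2))) := by
      refine hmain.congr ?_
      intro p
      simp
    exact tendsto_nhds_unique tendsto_const_nhds h1
  have hbc2 : b + 2 = c + 2 * g := by
    have h1 : (b : ℂ) + 2 = c + 2 * g := by linear_combination -hbc
    exact_mod_cast h1
  have hble : b ≤ 2 * g - 2 := by
    rw [← hsum, hb]
    exact Finset.single_le_sum (f := fun w => h (2 * D + 1) w) (fun i _ => Nat.zero_le _)
      (Finset.mem_range.2 (by omega))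
  have hc0 : c = 0 := by omega
  have hb1 : b = 2 * g - 2 := by omega
  refine ⟨?_, hc0⟩
  intro w
  by_cases hw : w = 2 * (D + 1)
  · rw [if_pos hw, hw]
    have e : 2 * (D + 1) = 2 * D + 2 := by ring
    rw [e, ← hb, hb1]
  · rw [if_neg hw]
    by_contra hne
    have hkw := hsupp _ _ hne
    have h2 : ∑ w ∈ {w, 2 * D + 2}, h (2 * D + 1) w ≤
        ∑ w ∈ Finset.range (2 * (2 * D + 1) + 1), h (2 * D + 1) w := by
      apply Finset.sum_le_sum_of_subset
      intro x hx
      rw [Finset.mem_insert, Finset.mem_singleton] at hx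
      rw [Finset.mem_range]
      omega
    rw [Finset.sum_pair (by omega), hsum, ← hb] at h2
    omega

end Vale.Agent.P275.H218
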